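import Vale.Agent.P126.Entropy

/-!
# Signed sums: contraction, symmetrisation, second moments, and a finite minimax lemma
-/

noncomputable section

open Finset
open scoped BigOperators

namespace Vale.Agent.P126.Rad

/-- The sign of a Boolean. -/
def sgn (b : Bool) : ℝ := if b then 1 else -1

@[simp] theorem sgn_true : sgn true = 1 := rfl
@[simp] theorem sgn_false : sgn false = -1 := rfl

theorem sgn_not (b : Bool) : sgn (!b) = -sgn b := by cases b <;> simp

theorem abs_sgn (b : Bool) : |sgn b| = 1 := by cases b <;> simp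

/-- Contraction principle for selections. -/
theorem contraction {κ ι : Type*} [Fintype ι] [DecidableEq ι] (b : κ → ι → ℝ) (φ : ℝ → ℝ)
    (hφ : ∀ s t, |φ s - φ t| ≤ |s - t|) (B : ℝ)
    (hB : ∀ d : (ι → Bool) → κ, ∑ σ, ∑ j, sgn (σ j) * b (d σ) j ≤ B) (d : (ι → Bool) → κ) :
    ∑ σ, ∑ j, sgn (σ j) * φ (b (d σ) j) ≤ B := by
  classical
  suffices H : ∀ s : Finset ι, ∀ d : (ι → Bool) → κ,
      ∑ σ, ∑ j, sgn (σ j) * (if j ∈ s then φ (b (d σ) j) else b (d σ) j) ≤ B by
    simpa using H univ d
  intro s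
  induction s using Finset.induction with
  | empty => simpa using hB
  | @insert a s ha ih =>
    intro d
    set up : (ι → Bool) → (ι → Bool) := fun σ => Function.update σ a true with hup
    set dn : (ι → Bool) → (ι → Bool) := fun σ => Function.update σ a false with hdn
    set fl : (ι → Bool) → (ι → Bool) := fun σ => Function.update σ a (!σ a) with hfl
    have hfl2 : Function.Involutive fl := by
      intro σ
      simp [hfl]
    set d' : (ι → Bool) → κ :=
      fun σ => if b (d (dn σ)) a ≤ b (d (up σ)) a then d σ else d (fl σ) with hd'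
    set F : (ι → Bool) → ℝ := fun σ =>
      ∑ j, sgn (σ j) * (if j ∈ insert a s then φ (b (d σ) j) else b (d σ) j) with hF
    set G : (ι → Bool) → ℝ := fun σ =>
      ∑ j, sgn (σ j) * (if j ∈ s then φ (b (d' σ) j) else b (d' σ) j) with hG
    have pair : ∀ σ : ι → Bool, σ a = true → F σ + F (fl σ) ≤ G σ + G (fl σ) := by
      intro σ hσ
      have e1 : up σ = σ := by rw [hup]; simp [← hσ]
      have e2 : dn σ = fl σ := by simp [hdn, hfl, hσ]
      have e3 : up (fl σ) = σ := by rw [hup]; simp [hfl, ← hσ]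
      have e4 : dn (fl σ) = fl σ := by simp [hdn, hfl, hσ]
      set A : κ → ℝ := fun k => ∑ j ∈ univ.erase a,
        sgn (σ j) * (if j ∈ s then φ (b k j) else b k j) with hA
      have hsplit : ∀ f : ι → ℝ, ∑ j, f j = f a + ∑ j ∈ univ.erase a, f j := fun f =>
        (add_sum_erase univ f (mem_univ a)).symm
      have hFσ : F σ = φ (b (d σ) a) + A (d σ) := by
        simp only [hF]
        rw [hsplit, hσ]
        simp only [mem_insert, true_or, if_true, sgn_true, one_mul, hA]
        congr 1
        refine sum_congr rfl fun j hj => ?_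
        simp [ne_of_mem_erase hj]
      have hFf : F (fl σ) = -φ (b (d (fl σ)) a) + A (d (fl σ)) := by
        simp only [hF]
        rw [hsplit]
        have : fl σ a = false := by simp [hfl, hσ]
        rw [this]
        simp only [mem_insert, true_or, if_true, sgn_false, neg_one_mul, hA]
        congr 1
        refine sum_congr rfl fun j hj => ?_
        simp [hfl, ne_of_mem_erase hj]
      have hGσ : G σ = b (d' σ) a + A (d' σ) := by
        simp only [hG]
        rw [hsplit, hσ]
        simp [ha, hA]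
      have hGf : G (fl σ) = -b (d' (fl σ)) a + A (d' (fl σ)) := by
        simp only [hG]
        rw [hsplit]
        have : fl σ a = false := by simp [hfl, hσ]
        rw [this]
        simp only [ha, if_false, sgn_false, neg_one_mul, hA]
        congr 1
        refine sum_congr rfl fun j hj => ?_
        simp [hfl, ne_of_mem_erase hj]
      rw [hFσ, hFf, hGσ, hGf]
      have hl := (abs_le.1 (hφ (b (d σ) a) (b (d (fl σ)) a))).2
      simp only [hd', e1, e2, e3, e4]
      by_cases hc : b (d (fl σ)) a ≤ b (d σ) a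
      · rw [if_pos hc, if_pos hc]
        rw [abs_of_nonneg (by linarith)] at hl
        linarith
      · rw [if_neg hc, if_neg hc, hfl2 σ]
        rw [abs_of_neg (by linarith)] at hl
        linarith
    have all : ∀ σ, F σ + F (fl σ) ≤ G σ + G (fl σ) := by
      intro σ
      cases hσ : σ a
      · have := pair (fl σ) (by simp [hfl, hσ])
        rw [hfl2 σ] at this
        linarith
      · exact pair σ hσ
    have h := sum_le_sum fun σ (_ : σ ∈ univ) => all σ
    have eF : ∑ σ, F (fl σ) = ∑ σ, F σ := (Equiv.sum_comp hfl2.toPerm F)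
    have eG : ∑ σ, G (fl σ) = ∑ σ, G σ := (Equiv.sum_comp hfl2.toPerm G)
    rw [sum_add_distrib, sum_add_distrib, eF, eG] at h
    have h2 := ih d'
    change ∑ σ, F σ ≤ B
    change ∑ σ, G σ ≤ B at h2
    linarith

/-- Some point has at most the average value. -/
theorem exists_le_avg {ι : Type*} [Fintype ι] {p F : ι → ℝ} (hp : IsProb p) {c : ℝ}
    (h : ∑ i, p i * F i ≤ c) : ∃ i, F i ≤ c := by
  by_contra hno
  push Not at hno
  obtain ⟨i, -, hi⟩ := exists_ne_zero_of_sum_ne_zero (by rw [hp.2]; exact one_ne_zero :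
    ∑ i, p i ≠ 0)
  have hlt : ∑ j, p j * c < ∑ j, p j * F j :=
    sum_lt_sum (fun j _ => mul_le_mul_of_nonneg_left (hno j).le (hp.1 j))
      ⟨i, mem_univ i, mul_lt_mul_of_pos_left (hno i) (lt_of_le_of_ne (hp.1 i) hi.symm)⟩
  rw [← sum_mul, hp.2, one_mul] at hlt
  linarith

/-- The one-sided symmetrisation inequality for selections. -/
theorem symmetrize {κ ι : Type*} [Fintype ι] {m : ℕ} (p : ι → ℝ) (hp : IsProb p)
    (h : κ → ι → ℝ) (B : ℝ)
    (hB : ∀ S : Fin m → ι, ∀ d : (Fin m → Bool) → κ,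
      ∑ σ, ∑ j, sgn (σ j) * h (d σ) (S j) ≤ 2 ^ m * B)
    (c : (Fin m → ι) → κ) :
    ∑ S, iid m p S * (∑ j, h (c S) (S j) - m * ∑ i, p i * h (c S) i) ≤ 2 * B := by
  classical
  set w : (Fin m → ι) × (Fin m → ι) → ℝ := fun P => iid m p P.1 * iid m p P.2 with hw
  set D : (Fin m → ι) × (Fin m → ι) → ℝ :=
    fun P => ∑ j, (h (c P.1) (P.1 j) - h (c P.1) (P.2 j)) with hD
  have hmean : ∀ S, ∑ S', iid m p S' * ∑ j, h (c S) (S' j) = m * ∑ i, p i * h (c S) i := by
    intro S
    simp_rw [mul_sum]
    rw [sum_comm]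
    simp only [sum_iid_one m hp (fun i => h (c S) i)]
    simp [mul_sum]
  have hL : ∑ S, iid m p S * (∑ j, h (c S) (S j) - m * ∑ i, p i * h (c S) i) = ∑ P, w P * D P := by
    rw [Fintype.sum_prod_type]
    refine sum_congr rfl fun S _ => ?_
    simp only [hw, hD, sum_sub_distrib, mul_sub]
    rw [← sum_mul, ← mul_sum, (isProb_iid m hp).2, mul_one, ← hmean S, mul_sum]
    congr 1
    simp only [mul_sum, mul_assoc]
  set sw : (Fin m → Bool) → (Fin m → ι) × (Fin m → ι) → (Fin m → ι) × (Fin m → ι) := fun σ P =>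
    (fun j => if σ j then P.1 j else P.2 j, fun j => if σ j then P.2 j else P.1 j) with hsw
  have hsw2 : ∀ σ, Function.Involutive (sw σ) := by
    intro σ P
    ext j <;> simp only [hsw] <;> cases σ j <;> simp
  have hwinv : ∀ σ P, w (sw σ P) = w P := by
    intro σ P
    simp only [hw, hsw, iid, ← prod_mul_distrib]
    refine prod_congr rfl fun j _ => ?_
    cases σ j <;> simp [mul_comm]
  have key : (2 ^ m : ℝ) * ∑ P, w P * D P = ∑ P, w P * ∑ σ, D (sw σ P) := by
    have : ∀ σ : Fin m → Bool, ∑ P, w P * D (sw σ P) = ∑ P, w P * D P := fun σ => by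
      have e := Equiv.sum_comp (hsw2 σ).toPerm (fun P => w P * D P)
      simp only [Function.Involutive.coe_toPerm, hwinv σ] at e
      exact e
    simp_rw [mul_sum]
    rw [sum_comm]
    simp only [← mul_sum, this]
    simp [Finset.card_univ]
  have bound : ∀ P, ∑ σ, D (sw σ P) ≤ 2 ^ m * (2 * B) := by
    intro P
    have hd : ∀ σ, D (sw σ P) = ∑ j, sgn (σ j) * h (c (sw σ P).1) (P.1 j)
        + ∑ j, sgn (!σ j) * h (c (sw σ P).1) (P.2 j) := by
      intro σ
      simp only [hD, ← sum_add_distrib]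
      refine sum_congr rfl fun j _ => ?_
      simp only [hsw]
      cases σ j <;> simp <;> ring
    simp only [hd, sum_add_distrib]
    have h1 := hB P.1 fun σ => c (sw σ P).1
    have h2 := hB P.2 fun σ => c (sw (fun j => !σ j) P).1
    have hnot : Function.Involutive fun (σ : Fin m → Bool) j => !σ j := fun σ => by simp
    have e := Equiv.sum_comp hnot.toPerm
      (fun σ => ∑ j, sgn (!σ j) * h (c (sw σ P).1) (P.2 j))
    simp only [Function.Involutive.coe_toPerm, Bool.not_not] at e
    rw [← e]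
    linarith
  rw [hL]
  refine le_of_mul_le_mul_left ?_ (by positivity : (0 : ℝ) < 2 ^ m)
  rw [key]
  calc ∑ P, w P * ∑ σ, D (sw σ P) ≤ ∑ P, w P * (2 ^ m * (2 * B)) :=
        sum_le_sum fun P _ => mul_le_mul_of_nonneg_left (bound P)
          (mul_nonneg ((isProb_iid m hp).1 _) ((isProb_iid m hp).1 _))
    _ = 2 ^ m * (2 * B) := by
        rw [← sum_mul]
        simp only [hw, Fintype.sum_prod_type, ← mul_sum, (isProb_iid m hp).2, mul_one, one_mul]

/-- Second moment of a sum of independent centred values. -/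
theorem iid_sq {ι : Type*} [Fintype ι] (k : ℕ) {p : ι → ℝ} (hp : IsProb p) (g : ι → ℝ)
    (h0 : ∑ i, p i * g i = 0) :
    ∑ S : Fin k → ι, iid k p S * (∑ j, g (S j)) ^ 2 = k * ∑ i, p i * g i ^ 2 := by
  classical
  simp_rw [sq, sum_mul_sum, mul_sum]
  rw [sum_comm]
  have h1 : ∀ j : Fin k, ∑ S : Fin k → ι, ∑ l, iid k p S * (g (S j) * g (S l))
      = ∑ i, p i * (g i * g i) := by
    intro j
    rw [sum_comm, sum_eq_single j]
    · exact sum_iid_one k hp (fun i => g i * g i) j
    · intro l _ hl
      have := sum_iid_prod k p fun j' i => (if j' = j then g i else 1) * (if j' = l then g i else 1)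
      simp only [prod_mul_distrib, prod_ite_eq' univ, mem_univ, if_true] at this
      rw [this]
      refine prod_eq_zero (mem_univ j) ?_
      simpa [hl.symm] using h0
    · simp
  simp [h1, mul_sum]

/-- Finite minimax. -/
theorem minimax {ι β : Type*} [Fintype ι] [Fintype β] [Nonempty ι] [Nonempty β]
    (v : ι → β → ℝ) {c : ℝ}
    (h : ∀ μ : β → ℝ, IsProb μ → ∃ i, ∑ x, μ x * v i x ≤ c) :
    ∃ p : ι → ℝ, IsProb p ∧ ∀ x, ∑ i, p i * v i x ≤ c := by
  classical
  by_contra hno
  push Not at hno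
  set S : Set (β → ℝ) := (fun p : ι → ℝ => fun x => ∑ i, p i * v i x) '' stdSimplex ℝ ι with hS
  have hc : Continuous (fun p : ι → ℝ => fun x => ∑ i, p i * v i x) := by fun_prop
  have hconv : Convex ℝ S := by
    rintro _ ⟨p, hp, rfl⟩ _ ⟨q, hq, rfl⟩ a b ha hb hab
    refine ⟨a • p + b • q, convex_stdSimplex ℝ ι hp hq ha hb hab, ?_⟩
    funext x
    simp only [Pi.add_apply, Pi.smul_apply, smul_eq_mul, mul_sum, ← sum_add_distrib]
    exact sum_congr rfl fun i _ => by ring
  have hdisj : Disjoint S (Set.Iic (fun _ => c)) := by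
    rw [Set.disjoint_left]
    rintro _ ⟨p, hp, rfl⟩ hle
    obtain ⟨x, hx⟩ := hno p ⟨hp.1, hp.2⟩
    exact absurd (hle x) (not_le.2 hx)
  obtain ⟨f, u, w, hfu, huw, hwf⟩ := geometric_hahn_banach_compact_closed hconv
    ((isCompact_stdSimplex ℝ ι).image hc) (convex_Iic _) isClosed_Iic hdisj
  set a : β → ℝ := fun x => f (Pi.single x 1) with ha
  have hf : ∀ y : β → ℝ, f y = ∑ x, y x * a x := by
    intro y
    conv_lhs => rw [pi_eq_sum_univ' y]
    simp [ha]
  have hneg : ∀ x, a x ≤ 0 := by
    intro x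
    by_contra hpos
    push Not at hpos
    obtain ⟨s, hs, hs'⟩ : ∃ s : ℝ, 0 ≤ s ∧ f (fun _ => c) - s * a x < w := by
      refine ⟨max 0 ((f (fun _ => c) - w) / a x + 1), le_max_left _ _, ?_⟩
      have h1 : (f (fun _ => c) - w) / a x + 1 ≤ max 0 ((f (fun _ => c) - w) / a x + 1) :=
        le_max_right _ _
      have h2 := mul_le_mul_of_nonneg_right h1 hpos.le
      rw [add_mul, div_mul_cancel₀ _ hpos.ne', one_mul] at h2
      linarith
    have := hwf ((fun _ => c) - s • Pi.single x 1) (fun y => by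
      simp only [Pi.sub_apply, Pi.smul_apply, smul_eq_mul]
      have : 0 ≤ (Pi.single x 1 : β → ℝ) y := by
        by_cases hy : y = x
        · subst hy; simp
        · simp [hy]
      nlinarith)
    rw [map_sub, map_smul, smul_eq_mul] at this
    simp only [ha] at hs'
    linarith
  have hc' := hwf (fun _ => c) (Set.mem_Iic.2 le_rfl)
  rw [hf, ← mul_sum] at hc'
  have hvert : ∀ i, ∑ x, v i x * a x < u := by
    intro i
    have := hfu _ ⟨Pi.single i 1, single_mem_stdSimplex ℝ i, rfl⟩
    rw [hf] at this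
    simpa [Pi.single_apply] using this
  set Z : ℝ := -∑ x, a x with hZ
  have hZ0 : 0 < Z := by
    rcases eq_or_lt_of_le (show 0 ≤ Z by
      rw [hZ, ← sum_neg_distrib]; exact sum_nonneg fun x _ => neg_nonneg.2 (hneg x)) with h0 | h0
    · have hz : ∀ x, a x = 0 := fun x =>
        (sum_eq_zero_iff_of_nonpos fun y _ => hneg y).1 (by linarith) x (mem_univ x)
      have := hvert (Classical.arbitrary ι)
      simp [hz] at this hc'
      linarith
    · exact h0
  obtain ⟨i, hi⟩ := h (fun x => -a x / Z) ⟨fun x => div_nonneg (neg_nonneg.2 (hneg x)) hZ0.le, by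
    rw [← sum_div, sum_neg_distrib, ← hZ, div_self hZ0.ne']⟩
  simp only [div_mul_eq_mul_div, ← sum_div] at hi
  rw [div_le_iff₀ hZ0] at hi
  have e : ∑ x, -a x * v i x = -∑ x, v i x * a x := by
    rw [← sum_neg_distrib]; exact sum_congr rfl fun x _ => by ring
  rw [e] at hi
  have := hvert i
  rw [hZ] at hi
  linarith

end Vale.Agent.P126.Rad

end
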