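import Vale.Agent.P126.Main
import Vale.Agent.P126.Uncond.Duality
import Vale.Agent.P126.Rad.Sampling

/-!
# Entropy duality for pairs with small Rademacher averages at a fixed sample size
-/

noncomputable section

open Finset Real
open scoped BigOperators Pointwise
open Vale.Agent.P126.Uncond (polar_smul isBody_smul covNum_smul_right)

namespace Vale.Agent.P126.Rad

variable {n : ℕ}

/-- Signed sums over `m` points of `B`, maximised over selections from `A`, are at most
`m * ε` on average. -/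
def RadLe (A B : Set (Fin n → ℝ)) (m : ℕ) (ε : ℝ) : Prop :=
  ∀ x : Fin m → Fin n → ℝ, (∀ i, x i ∈ B) → ∀ d : (Fin m → Bool) → Fin n → ℝ, (∀ σ, d σ ∈ A) →
    ∑ σ, ∑ i, sgn (σ i) * (d σ ⬝ᵥ x i) ≤ 2 ^ m * (m * ε)

theorem abs_dot_le_of_rad {A B : Set (Fin n → ℝ)} (hA : IsBody A) (hB : IsBody B) {m : ℕ}
    (hm : 1 ≤ m) {ε : ℝ} (h : RadLe A B m ε) {f x : Fin n → ℝ} (hf : f ∈ A) (hx : x ∈ B) :
    |f ⬝ᵥ x| ≤ m * ε := by
  classical
  wlog hpos : 0 ≤ f ⬝ᵥ x generalizing f
  · have := this (hA.2.2.2 f hf) (by simp [neg_dotProduct]; linarith [not_le.1 hpos])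
    simpa [neg_dotProduct] using this
  set j0 : Fin m := ⟨0, hm⟩
  have h1 := h (fun i => if i = j0 then x else 0) (fun i => by
    split_ifs
    exacts [hx, hB.zero_mem]) (fun σ => sgn (σ j0) • f) (fun σ => by
    cases σ j0
    · simpa using hA.2.2.2 f hf
    · simpa using hf)
  have h2 : ∀ σ : Fin m → Bool, ∑ i, sgn (σ i) *
      ((sgn (σ j0) • f) ⬝ᵥ (if i = j0 then x else 0)) = f ⬝ᵥ x := by
    intro σ
    rw [sum_eq_single j0]
    · rw [if_pos rfl, smul_dotProduct, smul_eq_mul, ← mul_assoc]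
      cases σ j0 <;> simp
    · intro i _ hi; simp [hi]
    · simp
  simp only [h2, sum_const, card_univ, Fintype.card_fun, Fintype.card_bool, Fintype.card_fin,
    nsmul_eq_mul, Nat.cast_pow, Nat.cast_ofNat] at h1
  rw [abs_of_nonneg hpos]
  exact le_of_mul_le_mul_left h1 (by positivity)

/-- The size of the dual sample. -/
def dualSize (T : ℕ) : ℕ := 2 ^ T * T ^ 2

/-- Small averages at sample size `T` give small averages for the dual pair. -/
theorem rad_dual {A B : Set (Fin n → ℝ)} (hA : IsBody A) (hB : IsBody B) {T : ℕ} (hT : 1 ≤ T)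
    (h : RadLe A B T 1) : RadLe B A (dualSize T) 2 := by
  classical
  rw [RadLe]
  set R := dualSize T with hR
  intro k hk y hy
  have hT0 : (0 : ℝ) < T := by exact_mod_cast hT
  set P := Fin T → Bool
  set u : (Fin R → Bool) → ℝ := fun _ => ((2 : ℝ) ^ R)⁻¹ with hu
  have hup : IsProb u := ⟨fun _ => by simp only [hu]; positivity, by simp [hu]⟩
  set q : ℝ := ((2 : ℝ) ^ T)⁻¹ with hq
  set v : P → ℝ := fun _ => q with hv
  have hvp : IsProb v := ⟨fun _ => by simp only [hv, hq]; positivity, by simp [hv, hq, P]⟩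
  set mm : ℝ := (R : ℝ) * q with hmm
  have hmT : mm = (T : ℝ) ^ 2 := by
    simp only [hmm, hR, hq, dualSize]
    push_cast
    field_simp
  set F : (Fin R → Bool) → ℝ := fun σ => ∑ i, sgn (σ i) * (y σ ⬝ᵥ k i) with hF
  set τs : (Fin T → Fin R → Bool) → Fin R → P := fun ω i t => ω t i with hτs
  set blk : (Fin T → Fin R → Bool) → P → Finset (Fin R) :=
    fun ω τ => univ.filter fun i => τs ω i = τ with hblk
  have hbd : ∀ ω, ∑ t, F (ω t) ≤
      (R : ℝ) * T + (T : ℝ) ^ 2 * ∑ τ : P, |((blk ω τ).card : ℝ) - mm| := by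
    intro ω
    set a : P → Fin n → ℝ := fun τ => if (blk ω τ).Nonempty then
      ∑ i ∈ blk ω τ, ((blk ω τ).card : ℝ)⁻¹ • k i else 0 with ha
    have haA : ∀ τ, a τ ∈ A := by
      intro τ
      simp only [ha]
      split_ifs with hne
      · refine hA.1.sum_mem (fun i _ => by positivity) ?_ (fun i _ => hk i)
        rw [sum_const, nsmul_eq_mul, mul_inv_cancel₀]
        exact_mod_cast hne.card_pos.ne'
      · exact hA.zero_mem
    set G : P → ℝ := fun τ => ∑ t, sgn (τ t) * (a τ ⬝ᵥ y (ω t)) with hG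
    have e : ∑ t, F (ω t) = ∑ τ : P, ((blk ω τ).card : ℝ) * G τ := by
      simp only [hF]
      rw [sum_comm, ← sum_fiberwise univ (τs ω)]
      refine sum_congr rfl fun τ _ => ?_
      change ∑ i ∈ blk ω τ, _ = _
      rcases (blk ω τ).eq_empty_or_nonempty with he | hne
      · simp [he]
      have hc : ((blk ω τ).card : ℝ) ≠ 0 := by exact_mod_cast hne.card_pos.ne'
      simp only [hG, ha, if_pos hne, sum_dotProduct, smul_dotProduct, smul_eq_mul, mul_sum]
      rw [sum_comm]
      refine sum_congr rfl fun t _ => sum_congr rfl fun i hi => ?_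
      have : τ t = ω t i := by rw [← (mem_filter.1 hi).2]
      rw [this, dotProduct_comm (y (ω t))]
      field_simp
    have hsum : ∑ τ : P, G τ ≤ 2 ^ T * ((T : ℝ) * 1) :=
      h (fun t => y (ω t)) (fun t => hy _) a haA
    have habs : ∀ τ, |G τ| ≤ (T : ℝ) ^ 2 := by
      intro τ
      refine (abs_sum_le_sum_abs _ _).trans ?_
      calc ∑ t, |sgn (τ t) * (a τ ⬝ᵥ y (ω t))| ≤ ∑ _t : Fin T, (T : ℝ) * 1 :=
            sum_le_sum fun t _ => by
              rw [abs_mul, abs_sgn, one_mul]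
              exact abs_dot_le_of_rad hA hB hT h (haA τ) (hy _)
        _ = (T : ℝ) ^ 2 := by simp [sq]
    rw [e]
    calc ∑ τ : P, ((blk ω τ).card : ℝ) * G τ
        ≤ ∑ τ : P, (mm * G τ + (T : ℝ) ^ 2 * |((blk ω τ).card : ℝ) - mm|) :=
          sum_le_sum fun τ _ => by
            have h1 : (((blk ω τ).card : ℝ) - mm) * G τ ≤
                |((blk ω τ).card : ℝ) - mm| * (T : ℝ) ^ 2 :=
              (le_abs_self _).trans (by
                rw [abs_mul]; exact mul_le_mul_of_nonneg_left (habs τ) (abs_nonneg _))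
            linarith
      _ ≤ (R : ℝ) * T + (T : ℝ) ^ 2 * ∑ τ : P, |((blk ω τ).card : ℝ) - mm| := by
          rw [sum_add_distrib, ← mul_sum, ← mul_sum]
          have : mm * ∑ τ : P, G τ ≤ (R : ℝ) * T := by
            refine (mul_le_mul_of_nonneg_left hsum (by rw [hmT]; positivity)).trans_eq ?_
            rw [hmm, hq]
            field_simp
          linarith
  have hdev : ∀ τ : P, ∑ ω, iid T u ω * |((blk ω τ).card : ℝ) - mm| ≤ T := by
    intro τ
    have hw : ∀ ω, iid T u ω = iid R v (τs ω) := by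
      intro ω
      simp only [iid, hu, hv, hq, prod_const, card_univ, Fintype.card_fin, ← inv_pow, ← pow_mul]
      rw [mul_comm]
    set g : P → ℝ := fun τ' => (if τ' = τ then 1 else 0) - q with hg
    have h0 : ∑ i, v i * g i = 0 := by
      simp [hv, hg, hq, P, mul_sub, sum_sub_distrib]
    have h2 : ∑ i, v i * g i ^ 2 ≤ q := by
      have : ∀ i, v i * g i ^ 2 = (q - 2 * q * q) * (if i = τ then 1 else 0) + q * q * q := by
        intro i; simp only [hv, hg]; split_ifs <;> ring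
      have hone : ∑ i : P, (if i = τ then (1 : ℝ) else 0) = 1 := by
        rw [Fintype.sum_eq_single τ fun i hi => if_neg hi, if_pos rfl]
      simp only [this, sum_add_distrib, ← mul_sum, hone, sum_const, card_univ, nsmul_eq_mul]
      have hc : ((Fintype.card P : ℕ) : ℝ) * q = 1 := by simp [hq, P]
      nlinarith [sq_nonneg q]
    have hb : ∀ ω, ((blk ω τ).card : ℝ) - mm = ∑ j, g (τs ω j) := by
      intro ω
      simp [hg, hblk, hmm, sum_sub_distrib, card_filter]
    have hsq : ∑ ω, iid T u ω * (((blk ω τ).card : ℝ) - mm) ^ 2 ≤ mm := by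
      simp only [hw, hb]
      have e := Equiv.sum_comp (Equiv.piComm fun (_ : Fin T) (_ : Fin R) => Bool)
        (fun p : Fin R → P => iid R v p * (∑ j, g (p j)) ^ 2)
      rw [show (∑ ω, iid R v (τs ω) * (∑ j, g (τs ω j)) ^ 2) =
        ∑ p : Fin R → P, iid R v p * (∑ j, g (p j)) ^ 2 from e, iid_sq R hvp g h0, hmm]
      exact mul_le_mul_of_nonneg_left h2 (by positivity)
    calc ∑ ω, iid T u ω * |((blk ω τ).card : ℝ) - mm|
        ≤ ∑ ω, iid T u ω * ((((blk ω τ).card : ℝ) - mm) ^ 2 / (2 * T) + T / 2) :=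
          sum_le_sum fun ω _ => mul_le_mul_of_nonneg_left (by
            have := sq_nonneg (|((blk ω τ).card : ℝ) - mm| - T)
            rw [← sq_abs (((blk ω τ).card : ℝ) - mm), div_add_div _ _ (by positivity)
              (by norm_num), le_div_iff₀ (by positivity)]
            nlinarith) ((isProb_iid T hup).1 ω)
      _ = (∑ ω, iid T u ω * (((blk ω τ).card : ℝ) - mm) ^ 2) / (2 * T) + T / 2 := by
          simp only [mul_add, sum_add_distrib, ← mul_div_assoc, ← sum_div, ← sum_mul,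
            (isProb_iid T hup).2, one_mul]
      _ ≤ mm / (2 * T) + T / 2 := by gcongr
      _ = T := by rw [hmT]; field_simp; ring
  have havg : ∑ ω, iid T u ω * ∑ t, F (ω t) = T * (((2 : ℝ) ^ R)⁻¹ * ∑ σ, F σ) := by
    simp_rw [mul_sum]
    rw [sum_comm]
    simp only [sum_iid_one T hup F]
    simp [hu, mul_sum]
  have hle : ∑ ω, iid T u ω * ∑ t, F (ω t) ≤ (T : ℝ) * (2 * R) := by
    calc ∑ ω, iid T u ω * ∑ t, F (ω t)
        ≤ ∑ ω, iid T u ω * ((R : ℝ) * T + (T : ℝ) ^ 2 * ∑ τ : P, |((blk ω τ).card : ℝ) - mm|) :=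
          sum_le_sum fun ω _ => mul_le_mul_of_nonneg_left (hbd ω) ((isProb_iid T hup).1 ω)
      _ = (R : ℝ) * T + (T : ℝ) ^ 2 *
            ∑ τ : P, ∑ ω, iid T u ω * |((blk ω τ).card : ℝ) - mm| := by
          simp only [mul_add, sum_add_distrib, ← sum_mul, (isProb_iid T hup).2, one_mul]
          congr 1
          simp only [mul_sum]
          rw [sum_comm]
          exact sum_congr rfl fun _ _ => sum_congr rfl fun _ _ => by ring
      _ ≤ (R : ℝ) * T + (T : ℝ) ^ 2 * ∑ _τ : P, (T : ℝ) := by gcongr with τ; exact hdev τ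
      _ = (T : ℝ) * (2 * R) := by
          simp [P, hR, dualSize]; ring
  rw [havg] at hle
  have h3 := le_of_mul_le_mul_left hle hT0
  rw [inv_mul_le_iff₀ (by positivity)] at h3
  change ∑ σ, F σ ≤ _
  linarith

/-- The factor in the bound. -/
def factor (T : ℕ) : ℝ := (dualSize T : ℝ) * T * (1 + 4 * T)

theorem one_le_factor {T : ℕ} (hT : 1 ≤ T) : 1 ≤ factor T := by
  have h1 : (1 : ℝ) ≤ T := by exact_mod_cast hT
  have h2 : (1 : ℝ) ≤ dualSize T := by
    exact_mod_cast Nat.one_le_iff_ne_zero.2 (by simp [dualSize]; omega)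
  calc (1 : ℝ) = 1 * 1 * 1 := by norm_num
    _ ≤ factor T := by unfold factor; gcongr; linarith

theorem log_covNum_nonneg (A B : Set (Fin n → ℝ)) : 0 ≤ Real.log (covNum A B) :=
  Real.log_natCast_nonneg _

/-- For every weight on finitely many test points, some sample makes agreement on the sample
imply agreement in mean. -/
theorem exists_sample {K Q : Set (Fin n → ℝ)} (hK : IsBody K) {T : ℕ} (hT : 1 ≤ T)
    (h : RadLe K Q T 1) {ι : Type*} [Fintype ι] (x : ι → Fin n → ℝ) (hx : ∀ i, x i ∈ Q)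
    (μ : ι → ℝ) (hμ : IsProb μ) (f : Fin n → ℝ) (hf : f ∈ K)
    (g : (Fin T → ι) → Fin n → ℝ) (hg : ∀ S, g S ∈ K)
    (hsmall : ∀ S t, |g S ⬝ᵥ x (S t) - f ⬝ᵥ x (S t)| ≤ 1) :
    ∃ S, ∑ i, μ i * |g S ⬝ᵥ x i - f ⬝ᵥ x i| ≤ 5 := by
  classical
  let D : {a : Fin n → ℝ // a ∈ K} × {a : Fin n → ℝ // a ∈ K} → ι → ℝ :=
    fun p i => p.1.1 ⬝ᵥ x i - p.2.1 ⬝ᵥ x i
  have hB : ∀ S : Fin T → ι, ∀ d : (Fin T → Bool) → _,
      ∑ σ, ∑ j, sgn (σ j) * (fun p i => -|D p i|) (d σ) (S j) ≤ 2 ^ T * (2 * (T : ℝ)) := by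
    intro S d
    refine contraction (fun p j => D p (S j)) (fun s => -|s|)
      (fun s t => by
        rw [neg_sub_neg, abs_sub_comm s t]; exact abs_abs_sub_abs_le_abs_sub t s) _ ?_ d
    intro d
    have h1 := h (fun j => x (S j)) (fun j => hx _) (fun σ => (d σ).1.1) (fun σ => (d σ).1.2)
    have h2 := h (fun j => x (S j)) (fun j => hx _) (fun σ => -(d σ).2.1)
      (fun σ => hK.2.2.2 _ (d σ).2.2)
    simp only [neg_dotProduct, mul_neg, sum_neg_distrib] at h2
    simp only [D, mul_sub, sum_sub_distrib]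
    linarith
  have hsym := symmetrize μ hμ (fun p i => -|D p i|) (2 * (T : ℝ)) hB
    (fun S => (⟨g S, hg S⟩, ⟨f, hf⟩))
  obtain ⟨S, hS⟩ := exists_le_avg (isProb_iid T hμ) hsym
  refine ⟨S, ?_⟩
  have hT0 : (0 : ℝ) < T := by exact_mod_cast hT
  have : ∑ t, |g S ⬝ᵥ x (S t) - f ⬝ᵥ x (S t)| ≤ (T : ℝ) :=
    (sum_le_sum fun t _ => hsmall S t).trans_eq (by simp)
  simp only [D, sum_neg_distrib, mul_neg] at hS
  nlinarith

/-- Averages of a few members of a finite family approximate their mixtures. -/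
theorem exists_average {K Q : Set (Fin n → ℝ)} (hK : IsBody K) (hQ : IsBody Q) {T : ℕ}
    (hT : 1 ≤ T) (h : RadLe K Q T 1) {ι : Type*} [Fintype ι] (g : ι → Fin n → ℝ)
    (hg : ∀ C, g C ∈ K) (p : ι → ℝ) (hp : IsProb p) :
    ∃ S : Fin (dualSize T) → ι, ∀ z ∈ Q,
      (∑ r, ((dualSize T : ℕ) : ℝ)⁻¹ • g (S r)) ⬝ᵥ z - (∑ C, p C • g C) ⬝ᵥ z ≤ 4 := by
  classical
  set R := dualSize T with hR
  have hR0 : (0 : ℝ) < R := by
    have : 0 < dualSize T := by simp only [dualSize]; positivity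
    exact_mod_cast this
  by_contra hno
  push Not at hno
  choose z hz hz4 using hno
  have hd := rad_dual hK hQ hT h
  have hsym := symmetrize (κ := {w : Fin n → ℝ // w ∈ Q}) (m := R) p hp
    (fun w C => w.1 ⬝ᵥ g C) ((R : ℝ) * 2)
    (fun S d => hd (fun j => g (S j)) (fun j => hg _) (fun σ => (d σ).1) (fun σ => (d σ).2))
    (fun S => ⟨z S, hz S⟩)
  obtain ⟨S, hS⟩ := exists_le_avg (isProb_iid R hp) hsym
  have e1 : (∑ r, (R : ℝ)⁻¹ • g (S r)) ⬝ᵥ z S = (R : ℝ)⁻¹ * ∑ j, z S ⬝ᵥ g (S j) := by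
    simp [sum_dotProduct, smul_dotProduct, mul_sum, dotProduct_comm (z S)]
  have e2 : (∑ C, p C • g C) ⬝ᵥ z S = ∑ C, p C * (z S ⬝ᵥ g C) := by
    simp [sum_dotProduct, smul_dotProduct, dotProduct_comm (z S)]
  have := hz4 S
  rw [e1, e2] at this
  have h5 := mul_lt_mul_of_pos_left this hR0
  rw [mul_sub, ← mul_assoc, mul_inv_cancel₀ hR0.ne', one_mul] at h5
  simp only at hS
  linarith

/-- A covering of `K` from a net of `polar L`. -/
theorem covNum_le_code {K L : Set (Fin n → ℝ)} (hK : IsBody K) (hL : IsBody L) {T : ℕ}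
    (hT : 1 ≤ T) (h : RadLe K (polar L) T 1) {N : ℕ} [Nonempty (Fin N)]
    (x : Fin N → Fin n → ℝ) (hxQ : ∀ i, x i ∈ polar L)
    (hxnear : ∀ w ∈ polar L, ∃ i, ∀ f ∈ K, |f ⬝ᵥ w - f ⬝ᵥ x i| ≤ 2) :
    covNum K ((13 : ℝ) • L) ≤ (N * (2 * T + 1)) ^ (T * dualSize T) := by
  classical
  have hQ := isBody_polar hL
  set J : Finset ℤ := Finset.Icc (-(T : ℤ)) T with hJ
  have hfloor : ∀ f ∈ K, ∀ i, ⌊f ⬝ᵥ x i⌋ ∈ J := by
    intro f hf i
    have := abs_le.1 (abs_dot_le_of_rad hK hQ hT h hf (hxQ i))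
    rw [mul_one] at this
    refine Finset.mem_Icc.2 ⟨Int.le_floor.2 (by push_cast; linarith), ?_⟩
    exact_mod_cast (Int.floor_le (f ⬝ᵥ x i)).trans this.2
  have : Nonempty J := ⟨⟨0, by simp [hJ]⟩⟩
  let g : (Fin T → Fin N) × (Fin T → J) → Fin n → ℝ := fun C =>
    if hC : ∃ f ∈ K, ∀ t, ⌊f ⬝ᵥ x (C.1 t)⌋ = (C.2 t : ℤ) then hC.choose else 0
  have hgK : ∀ C, g C ∈ K := by
    intro C; simp only [g]; split_ifs with hC
    exacts [hC.choose_spec.1, hK.zero_mem]
  have hR1 : 1 ≤ dualSize T := by simp [dualSize]; exact Nat.one_le_iff_ne_zero.2 (by positivity)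
  set R := dualSize T with hR
  have hR0 : (0 : ℝ) < R := by exact_mod_cast hR1
  let net : (Fin R → (Fin T → Fin N) × (Fin T → J)) → Fin n → ℝ :=
    fun S => ∑ r, (R : ℝ)⁻¹ • g (S r)
  have hnetK : ∀ S, net S ∈ K := fun S =>
    hK.1.sum_mem (fun r _ => by positivity) (by simp [hR0.ne']) (fun r _ => hgK _)
  have cover : ∀ f ∈ K, ∃ S, f - net S ∈ (13 : ℝ) • L := by
    intro f hf
    let code : (Fin T → Fin N) → (Fin T → Fin N) × (Fin T → J) :=
      fun S => (S, fun t => ⟨⌊f ⬝ᵥ x (S t)⌋, hfloor f hf (S t)⟩)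
    have hsmall : ∀ S t, |g (code S) ⬝ᵥ x (S t) - f ⬝ᵥ x (S t)| ≤ 1 := by
      intro S t
      have hex : ∃ f' ∈ K, ∀ t, ⌊f' ⬝ᵥ x ((code S).1 t)⌋ = ((code S).2 t : ℤ) :=
        ⟨f, hf, fun t => rfl⟩
      have e : g (code S) = hex.choose := by simp only [g]; rw [dif_pos hex]
      have := hex.choose_spec.2 t
      rw [← e] at this
      exact (Int.abs_sub_lt_one_of_floor_eq_floor this).le
    have weak : ∀ μ : Fin N → ℝ, IsProb μ →
        ∃ C, ∑ i, μ i * |g C ⬝ᵥ x i - f ⬝ᵥ x i| ≤ 5 := fun μ hμ => by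
      obtain ⟨S, hS⟩ := exists_sample hK hT h x hxQ μ hμ f hf (fun S => g (code S))
        (fun S => hgK _) hsmall
      exact ⟨code S, hS⟩
    obtain ⟨p, hp, hp5⟩ := minimax (fun C i => |g C ⬝ᵥ x i - f ⬝ᵥ x i|) weak
    set bar : Fin n → ℝ := ∑ C, p C • g C with hbar
    have hbarx : ∀ i, |bar ⬝ᵥ x i - f ⬝ᵥ x i| ≤ 5 := by
      intro i
      refine le_trans ?_ (hp5 i)
      have : bar ⬝ᵥ x i - f ⬝ᵥ x i = ∑ C, p C * (g C ⬝ᵥ x i - f ⬝ᵥ x i) := by
        simp [hbar, sum_dotProduct, smul_dotProduct, mul_sub, sum_sub_distrib, ← sum_mul, hp.2]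
      rw [this]
      refine (abs_sum_le_sum_abs _ _).trans_eq (sum_congr rfl fun C _ => ?_)
      rw [abs_mul, abs_of_nonneg (hp.1 C)]
    obtain ⟨S, hS⟩ := exists_average hK hQ hT h g hgK p hp
    refine ⟨S, ?_⟩
    by_contra hout
    obtain ⟨w, hw, hw13⟩ := exists_dual hL (by norm_num : (0 : ℝ) < 13) hout
    obtain ⟨i, hi⟩ := hxnear w hw
    have h1' : net S ⬝ᵥ (-x i) - bar ⬝ᵥ (-x i) ≤ 4 := hS (-x i) (hQ.2.2.2 _ (hxQ i))
    simp only [dotProduct_neg] at h1'
    have h2 := abs_le.1 (hbarx i)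
    have h3 := abs_le.1 (hi f hf)
    have h4 := abs_le.1 (hi _ (hnetK S))
    rw [sub_dotProduct] at hw13
    linarith
  refine (covNum_le_card (univ.image net) fun a ha => ?_).trans
    (Finset.card_image_le.trans_eq ?_)
  · obtain ⟨S, hS⟩ := cover a ha
    exact ⟨net S, mem_image_of_mem _ (mem_univ S), hS⟩
  · have hJc : J.card = 2 * T + 1 := by simp [hJ, Int.card_Icc]; omega
    simp only [card_univ, Fintype.card_fun, Fintype.card_prod, Fintype.card_fin,
      Fintype.card_coe, hJc]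
    rw [← mul_pow, ← pow_mul]

/-- Absolute scale entropy comparison. -/
theorem core {K L : Set (Fin n → ℝ)} (hK : IsBody K) (hL : IsBody L) {T : ℕ} (hT : 1 ≤ T)
    (h : RadLe K (polar L) T 1) :
    Real.log (covNum K ((13 : ℝ) • L)) ≤ factor T * Real.log (covNum (polar L) (polar K)) := by
  classical
  have hQ := isBody_polar hL
  have hcov := coveredBy_covNum hQ.2.1 (isBody_polar hK).2.2.1
  generalize covNum (polar L) (polar K) = N at hcov ⊢
  obtain ⟨c, hc⟩ := hcov
  have hN1 : 1 ≤ N := by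
    obtain ⟨i, -⟩ := Set.mem_iUnion.1 (hc hQ.zero_mem)
    exact Nat.one_le_of_lt i.2
  rcases hN1.eq_or_lt with hone | hN2
  · subst hone
    have hKL : ∀ f ∈ K, f ∈ L := by
      intro f hf
      rw [← polar_polar hL]
      intro g hg
      obtain ⟨i, b, hb, hib⟩ := Set.mem_iUnion.1 (hc hg)
      obtain ⟨j, b', hb', hjb⟩ := Set.mem_iUnion.1 (hc (hQ.2.2.2 g hg))
      obtain rfl : i = j := Subsingleton.elim i j
      have h1 : f ⬝ᵥ g = f ⬝ᵥ c i + f ⬝ᵥ b := by rw [← dotProduct_add, ← hib]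
      have h2 : -(f ⬝ᵥ g) = f ⬝ᵥ c i + f ⬝ᵥ b' := by
        rw [← dotProduct_add, ← dotProduct_neg, ← hjb]
      have h3 := (abs_le.1 (abs_dot_le hK hf hb)).2
      have h4 := (abs_le.1 (abs_dot_le hK hf hb')).1
      rw [dotProduct_comm]
      linarith
    have : covNum K ((13 : ℝ) • L) ≤ 1 := by
      refine (covNum_le_card {0} fun a ha => ⟨0, mem_singleton_self 0, ?_⟩).trans (by simp)
      rw [sub_zero, Set.mem_smul_set_iff_inv_smul_mem₀ (by norm_num : (13 : ℝ) ≠ 0)]
      exact hL.1.smul_mem_of_zero_mem hL.zero_mem (hKL a ha) ⟨by norm_num, by norm_num⟩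
    simp only [Nat.cast_one, Real.log_one, mul_zero]
    exact Real.log_nonpos (by positivity) (by exact_mod_cast this)
  have : Nonempty (Fin N) := ⟨⟨0, by omega⟩⟩
  let x : Fin N → Fin n → ℝ := fun i =>
    if hi : ∃ z ∈ polar L, z - c i ∈ polar K then hi.choose else 0
  have hxQ : ∀ i, x i ∈ polar L := by
    intro i; simp only [x]; split_ifs with hi
    exacts [hi.choose_spec.1, hQ.zero_mem]
  have hxnear : ∀ w ∈ polar L, ∃ i, ∀ f ∈ K, |f ⬝ᵥ w - f ⬝ᵥ x i| ≤ 2 := by
    intro z hz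
    obtain ⟨i, b, hb, hib⟩ := Set.mem_iUnion.1 (hc hz)
    have hzc : z - c i ∈ polar K := by rw [← hib]; simpa using hb
    have hi : ∃ z ∈ polar L, z - c i ∈ polar K := ⟨z, hz, hzc⟩
    refine ⟨i, fun f hf => ?_⟩
    have h1 := abs_le.1 (abs_dot_le hK hf hzc)
    have h2 := abs_le.1 (abs_dot_le hK hf hi.choose_spec.2)
    simp only [dotProduct_sub] at h1 h2
    have e : x i = hi.choose := by simp only [x]; rw [dif_pos hi]
    rw [e, abs_le]
    constructor <;> linarith
  have hcard := covNum_le_code hK hL hT h x hxQ hxnear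
  have hN0 : (0 : ℝ) < N := by exact_mod_cast hN1
  have hlogN : (1 : ℝ) / 2 ≤ Real.log N := by
    have h2 : (2 : ℝ) ≤ N := by exact_mod_cast hN2
    have := Real.log_le_log (by norm_num) h2
    have := Real.log_two_gt_d9
    linarith
  calc Real.log (covNum K ((13 : ℝ) • L))
      ≤ Real.log (((N : ℝ) * (2 * T + 1)) ^ (T * dualSize T)) := by
        rcases Nat.eq_zero_or_pos (covNum K ((13 : ℝ) • L)) with h0 | h0
        · rw [h0, Nat.cast_zero, Real.log_zero]
          exact Real.log_nonneg (one_le_pow₀ (by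
            have : (1 : ℝ) ≤ N := by exact_mod_cast hN1
            have : (1 : ℝ) ≤ 2 * T + 1 := by linarith [Nat.cast_nonneg (α := ℝ) T]
            nlinarith))
        · exact Real.log_le_log (by exact_mod_cast h0) (by exact_mod_cast hcard)
    _ = (T : ℝ) * dualSize T * (Real.log N + Real.log (2 * T + 1)) := by
        rw [Real.log_pow, Real.log_mul hN0.ne' (by positivity)]; push_cast; ring
    _ ≤ factor T * Real.log N := by
        have h1 : Real.log (2 * (T : ℝ) + 1) ≤ 4 * T * Real.log N := by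
          have := Real.log_le_sub_one_of_pos (by positivity : (0 : ℝ) < 2 * (T : ℝ) + 1)
          nlinarith [Nat.cast_nonneg (α := ℝ) T]
        refine (mul_le_mul_of_nonneg_left (show Real.log N + Real.log (2 * T + 1) ≤
          (1 + 4 * T) * Real.log N by linarith) (by positivity)).trans_eq ?_
        simp only [factor]; ring

/-- Both inequalities of the duality conjecture. -/
theorem duality (T : ℕ) (hT : 1 ≤ T) : ∃ b : ℝ, 1 ≤ b ∧ ∀ (n : ℕ) (K L : Set (Fin n → ℝ)),
    IsBody K → IsBody L → RadLe K (polar L) T (1 / 26) →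
      (1 / b) * Real.log (covNum (polar L) ((26 : ℝ) • polar K)) ≤ Real.log (covNum K L) ∧
      Real.log (covNum K L) ≤
        b * Real.log (covNum (polar L) ((26 : ℝ)⁻¹ • polar K)) := by
  set b := max (factor T) (factor (dualSize T)) with hb
  have hb1 : 1 ≤ b := (one_le_factor hT).trans (le_max_left _ _)
  refine ⟨b, hb1, fun n K L hK hL h => ?_⟩
  have h13 : (13 : ℝ) ≠ 0 := by norm_num
  have h2 : (2 : ℝ) ≠ 0 := by norm_num
  constructor
  · have hQ := isBody_polar hL
    have hpK := isBody_polar hK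
    have h1 : RadLe K (polar L) T 1 := fun x hx d hd => (h x hx d hd).trans (by
      have : (0 : ℝ) ≤ T := Nat.cast_nonneg T
      gcongr; norm_num)
    have hd := rad_dual hK hQ hT h1
    have hT' : 1 ≤ dualSize T := by simp [dualSize]; exact Nat.one_le_iff_ne_zero.2 (by positivity)
    have hK' : RadLe (polar L) (polar ((2 : ℝ) • polar K)) (dualSize T) 1 := by
      rw [polar_smul _ h2, polar_polar hK]
      intro x hx d hd'
      have := hd (fun i => (2 : ℝ) • x i) (fun i => by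
        have := hx i
        rwa [Set.mem_smul_set_iff_inv_smul_mem₀ (inv_ne_zero h2), inv_inv] at this) d hd'
      simp only [dotProduct_smul, smul_eq_mul, mul_left_comm _ (2 : ℝ), ← mul_sum] at this
      linarith
    have hc := core hQ (isBody_smul hpK h2) hT' hK'
    rw [smul_smul, show (13 : ℝ) * 2 = 26 by norm_num, polar_smul _ h2, polar_polar hK,
      polar_polar hL, covNum_smul_right _ _ (inv_ne_zero h2), inv_inv] at hc
    have hmono : Real.log (covNum K ((2 : ℝ) • L)) ≤ Real.log (covNum K L) := by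
      rcases Nat.eq_zero_or_pos (covNum K ((2 : ℝ) • L)) with h0 | h0
      · rw [h0, Nat.cast_zero, Real.log_zero]; exact log_covNum_nonneg _ _
      · refine Real.log_le_log (by exact_mod_cast h0) ?_
        have := covNum_scale_mono hK.2.1 hL (a := 1 / 2) (a' := 1) (by norm_num) (by norm_num)
        rw [inv_one, one_smul, one_div, inv_inv] at this
        exact_mod_cast this
    rw [one_div, inv_mul_le_iff₀ (by linarith)]
    calc Real.log (covNum (polar L) ((26 : ℝ) • polar K))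
        ≤ factor (dualSize T) * Real.log (covNum K ((2 : ℝ) • L)) := hc
      _ ≤ b * Real.log (covNum K L) :=
          mul_le_mul (le_max_right _ _) hmono (log_covNum_nonneg _ _) (by linarith)
  · have hL' := isBody_smul hL (inv_ne_zero h13)
    have h1 : RadLe K (polar ((13 : ℝ)⁻¹ • L)) T 1 := by
      rw [polar_smul _ (inv_ne_zero h13), inv_inv]
      intro x hx d hd'
      have := h (fun i => (13 : ℝ)⁻¹ • x i) (fun i => by
        have := hx i
        rwa [Set.mem_smul_set_iff_inv_smul_mem₀ h13] at this) d hd'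
      simp only [dotProduct_smul, smul_eq_mul, mul_left_comm _ (13 : ℝ)⁻¹, ← mul_sum] at this
      have h0 : (0 : ℝ) ≤ 2 ^ T * T := by positivity
      linarith
    have hc := core hK hL' hT h1
    rw [smul_inv_smul₀ h13, polar_smul _ (inv_ne_zero h13), inv_inv,
      covNum_smul_right _ _ h13] at hc
    have hmono : Real.log (covNum (polar L) ((13 : ℝ)⁻¹ • polar K)) ≤
        Real.log (covNum (polar L) ((26 : ℝ)⁻¹ • polar K)) := by
      have hQ := isBody_polar hL
      rcases Nat.eq_zero_or_pos (covNum (polar L) ((13 : ℝ)⁻¹ • polar K)) with h0 | h0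
      · rw [h0, Nat.cast_zero, Real.log_zero]; exact log_covNum_nonneg _ _
      · refine Real.log_le_log (by exact_mod_cast h0) ?_
        exact_mod_cast covNum_scale_mono hQ.2.1 (isBody_polar hK) (a := 13) (a' := 26)
          (by norm_num) (by norm_num)
    exact hc.trans (mul_le_mul (le_max_left _ _) hmono (log_covNum_nonneg _ _) (by linarith))

end Vale.Agent.P126.Rad

end
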